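import Vale.Agent.P365.T2.H862.Good
import Vale.Agent.P365.T2.SmoothS755
import Vale.Agent.P365.Open.Circ

/-!
# P365 T2: the logarithmic integral at one site (helper531, (LOG) of 37's note 20341).

`dn a B v = (v - a)² + B² = ‖v - s‖²`, `s = a + i B`.
-/

set_option linter.all false

namespace P365T2.H531

open MeasureTheory Set P365L P365O P365T1 P365T1.Smooth755 P365T2.H862
open scoped Real

/-- a law with a bounded density of class `C^{1,1}` and compact support -/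
structure C11 (L0 R0 K : ℝ) (ν : Measure ℝ) (ρ : ℝ → ℝ) : Prop where
  L0_pos : 0 < L0
  R0_nonneg : 0 ≤ R0
  K_nonneg : 0 ≤ K
  meas : Measurable ρ
  nonneg : ∀ v, 0 ≤ ρ v
  le : ∀ v, ρ v ≤ R0
  supp : ∀ v, v ∉ Icc (-L0) L0 → ρ v = 0
  second : ∀ v t, |ρ (v + t) + ρ (v - t) - 2 * ρ v| ≤ K * t ^ 2
  int : ∀ g : ℝ → ℝ, ∫ v, g v ∂ν = ∫ v, ρ v * g v

variable {L0 R0 K : ℝ} {ν : Measure ℝ} {ρ : ℝ → ℝ}

theorem C11.near (h : C11 L0 R0 K ν ρ) (a v : ℝ) : ρ v ≤ 2 * ρ a + K * (v - a) ^ 2 := by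
  have h1 := (abs_le.1 (h.second a (v - a))).2
  have h2 := h.nonneg (a - (v - a))
  have h3 : a + (v - a) = v := by ring
  rw [h3] at h1
  linarith

theorem continuous_dn_inv {B : ℝ} (hB : 0 < B) (a : ℝ) : Continuous fun v => (dn a B v)⁻¹ :=
  (continuous_dn a B).inv₀ fun v => (dn_pos hB a v).ne'

theorem C11.integrable (h : C11 L0 R0 K ν ρ) {f : ℝ → ℝ} (hf : Integrable f) :
    Integrable fun v => ρ v * f v := by
  refine hf.bdd_mul h.meas.aestronglyMeasurable (c := R0) (Filter.Eventually.of_forall fun v => ?_)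
  rw [Real.norm_eq_abs, abs_of_nonneg (h.nonneg v)]
  exact h.le v

/-- the value of the density at the centre against the mass of the resonance -/
theorem C11.peak (h : C11 L0 R0 K ν ρ) {B : ℝ} (hB : 0 < B) (a : ℝ) :
    ρ a * (π / B) ≤ ∫ v, (dn a B v)⁻¹ ∂ν + π * (K + 2 * R0) := by
  have hi := integrable_dn_inv hB 0
  have hK := h.K_nonneg
  have hR := h.R0_nonneg
  have e1 : ∫ v, (dn a B v)⁻¹ ∂ν = ∫ t, ρ (a + t) * (dn 0 B t)⁻¹ := by
    rw [h.int, ← integral_add_left_eq_self (fun v => ρ v * (dn a B v)⁻¹) a]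
    refine integral_congr_ae (Filter.Eventually.of_forall fun t => ?_)
    simp only [dn]
    ring_nf
  have e2 : ∫ v, (dn a B v)⁻¹ ∂ν = ∫ t, ρ (a - t) * (dn 0 B t)⁻¹ := by
    rw [h.int, ← integral_sub_left_eq_self (fun v => ρ v * (dn a B v)⁻¹) volume a]
    refine integral_congr_ae (Filter.Eventually.of_forall fun t => ?_)
    simp only [dn]
    ring_nf
  have i1 : Integrable fun t => ρ (a + t) * (dn 0 B t)⁻¹ := by
    refine hi.bdd_mul (h.meas.comp (measurable_const.add measurable_id)).aestronglyMeasurable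
      (c := R0) (Filter.Eventually.of_forall fun v => ?_)
    rw [Real.norm_eq_abs, abs_of_nonneg (h.nonneg _)]
    exact h.le _
  have i2 : Integrable fun t => ρ (a - t) * (dn 0 B t)⁻¹ := by
    refine hi.bdd_mul (h.meas.comp (measurable_const.sub measurable_id)).aestronglyMeasurable
      (c := R0) (Filter.Eventually.of_forall fun v => ?_)
    rw [Real.norm_eq_abs, abs_of_nonneg (h.nonneg _)]
    exact h.le _
  have hpt : ∀ t, 2 * ρ a * (dn 0 B t)⁻¹ ≤
      (ρ (a + t) * (dn 0 B t)⁻¹ + ρ (a - t) * (dn 0 B t)⁻¹) +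
        2 * (K + 2 * R0) * (1 + t ^ 2)⁻¹ := by
    intro t
    have hd : 0 < dn 0 B t := dn_pos hB 0 t
    have hd' : t ^ 2 ≤ dn 0 B t := by
      unfold dn
      nlinarith [sq_nonneg B]
    have h1 : 2 * ρ a - (ρ (a + t) + ρ (a - t)) ≤ K * t ^ 2 := by
      have := (abs_le.1 (h.second a t)).1
      linarith
    have h2 : 2 * ρ a - (ρ (a + t) + ρ (a - t)) ≤ 2 * R0 := by
      have := h.le a
      have := h.nonneg (a + t)
      have := h.nonneg (a - t)
      linarith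
    have h3 : (2 * ρ a - (ρ (a + t) + ρ (a - t))) / dn 0 B t ≤ 2 * (K + 2 * R0) / (1 + t ^ 2) := by
      rw [div_le_div_iff₀ hd (by positivity)]
      by_cases ht : t ^ 2 ≤ 1
      · calc (2 * ρ a - (ρ (a + t) + ρ (a - t))) * (1 + t ^ 2) ≤ K * t ^ 2 * (1 + t ^ 2) :=
              mul_le_mul_of_nonneg_right h1 (by positivity)
          _ ≤ 2 * (K + 2 * R0) * t ^ 2 := by
              nlinarith [mul_nonneg hK (sq_nonneg t), mul_nonneg hR (sq_nonneg t)]
          _ ≤ _ := mul_le_mul_of_nonneg_left hd' (by positivity)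
      · push Not at ht
        calc (2 * ρ a - (ρ (a + t) + ρ (a - t))) * (1 + t ^ 2) ≤ 2 * R0 * (1 + t ^ 2) :=
              mul_le_mul_of_nonneg_right h2 (by positivity)
          _ ≤ 2 * (K + 2 * R0) * t ^ 2 := by
              nlinarith [mul_nonneg hK (sq_nonneg t), mul_nonneg hR (sq_nonneg t)]
          _ ≤ _ := mul_le_mul_of_nonneg_left hd' (by positivity)
    rw [div_eq_mul_inv, div_eq_mul_inv] at h3
    linarith
  have hj : Integrable (fun t : ℝ => 2 * (K + 2 * R0) * (1 + t ^ 2)⁻¹) :=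
    integrable_inv_one_add_sq.const_mul _
  have h4 : ∫ t, 2 * ρ a * (dn 0 B t)⁻¹ ≤ ∫ t, ((ρ (a + t) * (dn 0 B t)⁻¹ +
      ρ (a - t) * (dn 0 B t)⁻¹) + 2 * (K + 2 * R0) * (1 + t ^ 2)⁻¹) :=
    integral_mono (hi.const_mul (2 * ρ a)) ((i1.add i2).add hj) hpt
  have h5 : ∫ t, ((ρ (a + t) * (dn 0 B t)⁻¹ +
      ρ (a - t) * (dn 0 B t)⁻¹) + 2 * (K + 2 * R0) * (1 + t ^ 2)⁻¹) =
      (∫ v, (dn a B v)⁻¹ ∂ν + ∫ v, (dn a B v)⁻¹ ∂ν) + 2 * (K + 2 * R0) * π := by
    have g1 := integral_add (i1.add i2) hj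
    have g2 := integral_add i1 i2
    simp only [Pi.add_apply] at g1 g2
    rw [g1, g2, integral_const_mul, integral_univ_inv_one_add_sq]
    rw [← e1, ← e2]
  rw [h5, integral_const_mul, integral_dn_inv hB 0] at h4
  linarith

/-- the logarithmic integral, any position of the resonance -/
theorem C11.log_le' (h : C11 L0 R0 K ν ρ) {a B M c0 : ℝ} {L : ℝ → ℝ} (hB : 0 < B) (hc0 : 0 ≤ c0)
    (hM : 0 ≤ M) (h0 : ∀ v, 0 ≤ L v) (hL : ∀ v ∈ Icc (-L0) L0, L v ≤ M)
    (hi : Integrable fun v => L v * (dn a B v)⁻¹)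
    (hc : ∫ v, L v * (dn a B v)⁻¹ ≤ c0 * (π / B)) :
    ∫ v, L v * (dn a B v)⁻¹ ∂ν ≤ 2 * c0 * ∫ v, (dn a B v)⁻¹ ∂ν +
      (2 * π * (K + 2 * R0) * c0 + 2 * K * L0 * M) := by
  have hK := h.K_nonneg
  have hR := h.R0_nonneg
  have hL0 := h.L0_pos
  rw [h.int (fun v => L v * (dn a B v)⁻¹)]
  have hpt : ∀ v, ρ v * (L v * (dn a B v)⁻¹) ≤ 2 * ρ a * (L v * (dn a B v)⁻¹) +
      (Icc (-L0) L0).indicator (fun _ => K * M) v := by
    intro v
    have hd : 0 < dn a B v := dn_pos hB a v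
    have hd' : (v - a) ^ 2 * (dn a B v)⁻¹ ≤ 1 := by
      rw [← div_eq_mul_inv, div_le_one hd]
      unfold dn
      nlinarith [sq_nonneg B]
    have hq : 0 ≤ L v * (dn a B v)⁻¹ := mul_nonneg (h0 v) (inv_nonneg.2 hd.le)
    by_cases hv : v ∈ Icc (-L0) L0
    · rw [indicator_of_mem hv]
      have h1 := mul_le_mul_of_nonneg_right (h.near a v) hq
      have h2 : K * (v - a) ^ 2 * (L v * (dn a B v)⁻¹) ≤ K * M := by
        have e : K * (v - a) ^ 2 * (L v * (dn a B v)⁻¹) =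
            K * (L v * ((v - a) ^ 2 * (dn a B v)⁻¹)) := by ring
        rw [e]
        refine mul_le_mul_of_nonneg_left ?_ hK
        calc L v * ((v - a) ^ 2 * (dn a B v)⁻¹) ≤ L v * 1 := mul_le_mul_of_nonneg_left hd' (h0 v)
          _ ≤ M := by rw [mul_one]; exact hL v hv
      linarith
    · rw [indicator_of_notMem hv, h.supp v hv, zero_mul, add_zero]
      exact mul_nonneg (mul_nonneg zero_le_two (h.nonneg a)) hq
  have hind : Integrable ((Icc (-L0) L0).indicator fun _ : ℝ => K * M) := by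
    refine (integrable_indicator_iff measurableSet_Icc).2 ?_
    exact integrableOn_const (by simp)
  have h4 : ∫ v, ρ v * (L v * (dn a B v)⁻¹) ≤ ∫ v, (2 * ρ a * (L v * (dn a B v)⁻¹) +
      (Icc (-L0) L0).indicator (fun _ => K * M) v) :=
    integral_mono (h.integrable hi) ((hi.const_mul (2 * ρ a)).add hind) hpt
  have h5 : ∫ v, (2 * ρ a * (L v * (dn a B v)⁻¹) +
      (Icc (-L0) L0).indicator (fun _ => K * M) v) =
      2 * ρ a * (∫ v, L v * (dn a B v)⁻¹) + 2 * K * L0 * M := by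
    have g1 := integral_add (hi.const_mul (2 * ρ a)) hind
    rw [g1, integral_const_mul, integral_indicator measurableSet_Icc, setIntegral_const]
    simp only [smul_eq_mul, Measure.real, Real.volume_Icc]
    rw [ENNReal.toReal_ofReal (by linarith)]
    ring
  rw [h5] at h4
  have h6 : 2 * ρ a * (∫ v, L v * (dn a B v)⁻¹) ≤ 2 * ρ a * (c0 * (π / B)) :=
    mul_le_mul_of_nonneg_left hc (mul_nonneg zero_le_two (h.nonneg a))
  have h7 := mul_le_mul_of_nonneg_left (h.peak hB a) (show 0 ≤ 2 * c0 by linarith)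
  linarith

/-- the logarithmic integral, resonance far away -/
theorem C11.log_far (h : C11 L0 R0 K ν ρ) {a B M : ℝ} {L : ℝ → ℝ} (hB : 0 < B)
    (hM : 0 ≤ M) (h0 : ∀ v, 0 ≤ L v) (hL : ∀ v ∈ Icc (-L0) L0, L v ≤ M)
    (hfar : (2 * L0 + 1) ^ 2 ≤ a ^ 2 + B ^ 2)
    (hi : Integrable fun v => L v * (dn a B v)⁻¹) :
    ∫ v, L v * (dn a B v)⁻¹ ∂ν ≤ 16 * R0 * L0 * M / (1 + a ^ 2 + B ^ 2) := by
  have hR := h.R0_nonneg
  have hL0 := h.L0_pos
  rw [h.int (fun v => L v * (dn a B v)⁻¹)]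
  set c := R0 * M * (8 / (1 + a ^ 2 + B ^ 2)) with hc
  have hs : 0 < 1 + a ^ 2 + B ^ 2 := by positivity
  have hpt : ∀ v, ρ v * (L v * (dn a B v)⁻¹) ≤ (Icc (-L0) L0).indicator (fun _ => c) v := by
    intro v
    by_cases hv : v ∈ Icc (-L0) L0
    · rw [indicator_of_mem hv, hc]
      have hd : 0 < dn a B v := dn_pos hB a v
      have h1 : (dn a B v)⁻¹ ≤ 8 / (1 + a ^ 2 + B ^ 2) := by
        rw [inv_eq_one_div, div_le_div_iff₀ hd hs]
        have hv2 : v ^ 2 ≤ L0 ^ 2 := sq_le_sq' hv.1 hv.2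
        have hL1 : 0 ≤ (a - 2 * v) ^ 2 := sq_nonneg _
        unfold dn
        nlinarith
      have h2 : L v * (dn a B v)⁻¹ ≤ M * (8 / (1 + a ^ 2 + B ^ 2)) :=
        mul_le_mul (hL v hv) h1 (inv_nonneg.2 hd.le) hM
      calc ρ v * (L v * (dn a B v)⁻¹) ≤ R0 * (M * (8 / (1 + a ^ 2 + B ^ 2))) :=
            mul_le_mul (h.le v) h2 (mul_nonneg (h0 v) (inv_nonneg.2 hd.le)) hR
        _ = _ := by ring
    · rw [indicator_of_notMem hv, h.supp v hv, zero_mul]
  have hind : Integrable ((Icc (-L0) L0).indicator fun _ : ℝ => c) := by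
    refine (integrable_indicator_iff measurableSet_Icc).2 ?_
    exact integrableOn_const (by simp)
  have h4 := integral_mono (h.integrable hi) hind hpt
  refine h4.trans (le_of_eq ?_)
  rw [integral_indicator measurableSet_Icc, setIntegral_const]
  simp only [smul_eq_mul, Measure.real, Real.volume_Icc]
  rw [ENNReal.toReal_ofReal (by linarith), hc]
  ring

/-- the constant of `C11.log_le` -/
noncomputable def CL (L0 R0 K : ℝ) : ℝ :=
  16 * R0 * L0 + (2 * π * (K + 2 * R0) + 2 * K * L0) * (1 + (2 * L0 + 1) ^ 2)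

theorem C11.CL_nonneg (h : C11 L0 R0 K ν ρ) : 0 ≤ CL L0 R0 K := by
  have hK := h.K_nonneg
  have hR := h.R0_nonneg
  have hL0 := h.L0_pos
  unfold CL
  positivity

/-- **(LOG)** -/
theorem C11.log_le (h : C11 L0 R0 K ν ρ) {a B M c0 : ℝ} {L : ℝ → ℝ} (hB : 0 < B) (hc0 : 0 ≤ c0)
    (hM : 0 ≤ M) (h0 : ∀ v, 0 ≤ L v) (hL : ∀ v ∈ Icc (-L0) L0, L v ≤ M)
    (hi : Integrable fun v => L v * (dn a B v)⁻¹)
    (hc : ∫ v, L v * (dn a B v)⁻¹ ≤ c0 * (π / B)) :
    ∫ v, L v * (dn a B v)⁻¹ ∂ν ≤ 2 * c0 * ∫ v, (dn a B v)⁻¹ ∂ν +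
      CL L0 R0 K * (c0 + M) / (1 + a ^ 2 + B ^ 2) := by
  have hK := h.K_nonneg
  have hR := h.R0_nonneg
  have hL0 := h.L0_pos
  have hs : 0 < 1 + a ^ 2 + B ^ 2 := by positivity
  by_cases hfar : (2 * L0 + 1) ^ 2 ≤ a ^ 2 + B ^ 2
  · have h1 := h.log_far hB hM h0 hL hfar hi
    have h2 : 0 ≤ ∫ v, (dn a B v)⁻¹ ∂ν := by
      rw [h.int]
      exact integral_nonneg fun v => mul_nonneg (h.nonneg v) (inv_nonneg.2 (dn_pos hB a v).le)
    have h3 : 16 * R0 * L0 * M / (1 + a ^ 2 + B ^ 2) ≤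
        CL L0 R0 K * (c0 + M) / (1 + a ^ 2 + B ^ 2) := by
      refine div_le_div_of_nonneg_right ?_ hs.le
      unfold CL
      have h4 : 0 ≤ (2 * π * (K + 2 * R0) + 2 * K * L0) * (1 + (2 * L0 + 1) ^ 2) := by positivity
      have h5 : 16 * R0 * L0 * M ≤ 16 * R0 * L0 * (c0 + M) :=
        mul_le_mul_of_nonneg_left (by linarith) (by positivity)
      have h6 : 0 ≤ (2 * π * (K + 2 * R0) + 2 * K * L0) * (1 + (2 * L0 + 1) ^ 2) * (c0 + M) :=
        mul_nonneg h4 (by linarith)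
      linarith
    have h7 : 0 ≤ 2 * c0 * ∫ v, (dn a B v)⁻¹ ∂ν := mul_nonneg (by linarith) h2
    linarith
  · push Not at hfar
    have h1 := h.log_le' hB hc0 hM h0 hL hi hc
    have h3 : 2 * π * (K + 2 * R0) * c0 + 2 * K * L0 * M ≤
        CL L0 R0 K * (c0 + M) / (1 + a ^ 2 + B ^ 2) := by
      rw [le_div_iff₀ hs]
      have h4 : 2 * π * (K + 2 * R0) * c0 + 2 * K * L0 * M ≤
          (2 * π * (K + 2 * R0) + 2 * K * L0) * (c0 + M) := by
        have h5 : 0 ≤ 2 * π * (K + 2 * R0) * M := by positivity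
        have h6 : 0 ≤ 2 * K * L0 * c0 := by positivity
        nlinarith
      have h8 : 0 ≤ (2 * π * (K + 2 * R0) + 2 * K * L0) * (c0 + M) := by positivity
      calc (2 * π * (K + 2 * R0) * c0 + 2 * K * L0 * M) * (1 + a ^ 2 + B ^ 2) ≤
          (2 * π * (K + 2 * R0) + 2 * K * L0) * (c0 + M) * (1 + a ^ 2 + B ^ 2) :=
            mul_le_mul_of_nonneg_right h4 hs.le
        _ ≤ (2 * π * (K + 2 * R0) + 2 * K * L0) * (c0 + M) * (1 + (2 * L0 + 1) ^ 2) :=
            mul_le_mul_of_nonneg_left (by linarith) h8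
        _ ≤ _ := by
            unfold CL
            have h9 : 0 ≤ 16 * R0 * L0 * (c0 + M) := by positivity
            linarith
    linarith

/-- the smooth law -/
theorem c11_nuS {lam l : ℝ} (hl : 0 < l) (h : l < lam) :
    C11 lam (2 * (lam - l))⁻¹ (K2 lam l) (nuS lam l) (rhoS lam l) where
  L0_pos := by linarith
  R0_nonneg := inv_nonneg.2 (by linarith)
  K_nonneg := K2_nonneg hl h
  meas := measurable_rhoS lam l
  nonneg := rhoS_nonneg hl h
  le := rhoS_le hl h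
  supp := by
    intro v hv
    unfold rhoS muc
    rw [setIntegral_eq_zero_of_forall_eq_zero, mul_zero]
    intro c hc
    refine P365T1.Bump.rhoB_eq_zero hl ?_
    intro h2
    exact hv ⟨by linarith [h2.1, hc.1], by linarith [h2.2, hc.2]⟩
  second := rhoS_second hl h
  int := by
    intro g
    have hs : ∀ v, v ∉ Icc (-lam) lam → rhoS lam l v = 0 := by
      intro v hv
      unfold rhoS muc
      rw [setIntegral_eq_zero_of_forall_eq_zero, mul_zero]
      intro c hc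
      refine P365T1.Bump.rhoB_eq_zero hl ?_
      intro h2
      exact hv ⟨by linarith [h2.1, hc.1], by linarith [h2.2, hc.2]⟩
    rw [integral_nuS hl h, muv]
    rw [setIntegral_eq_integral_of_forall_compl_eq_zero]
    · rfl
    · intro v hv
      rw [hs v hv, zero_smul]

end P365T2.H531
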