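import Vale.Agent.P365.T2.H531.Log

/-!
# P365 T2: the logarithm on the circle of one resonance (helper531).

`ec a B v = (v - conj s)/(v - s)`, `s = a + i B`, runs over the unit circle; the Cauchy law is
uniform in it.
-/

set_option linter.all false

namespace P365T2.H531

open MeasureTheory ProbabilityTheory Set P365L P365O P365T1 P365T2.H862 Complex
open scoped Real NNReal ENNReal

/-- the point of the unit circle -/
noncomputable def ec (a B v : ℝ) : ℂ := ((v : ℂ) - (a - B * I)) / ((v : ℂ) - (a + B * I))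

theorem ec_eq {a B v : ℝ} (hB : 0 < B) :
    ec a B v = ((((v - a) / B : ℝ) : ℂ) + I) / ((((v - a) / B : ℝ) : ℂ) - I) := by
  have hB' : (B : ℂ) ≠ 0 := Complex.ofReal_ne_zero.2 hB.ne'
  have h1 : (((v - a) / B : ℝ) : ℂ) + I = ((v : ℂ) - (a - B * I)) / B := by
    push_cast
    field_simp
    ring
  have h2 : (((v - a) / B : ℝ) : ℂ) - I = ((v : ℂ) - (a + B * I)) / B := by
    push_cast
    field_simp
    ring
  rw [h1, h2, div_div_div_cancel_right₀ hB', ec]

theorem norm_ec {a B : ℝ} (hB : 0 < B) (v : ℝ) : ‖ec a B v‖ = 1 := by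
  rw [ec_eq hB, ← circle_cphi, norm_circleMap_zero]
  simp

theorem measurable_ec (a B : ℝ) : Measurable (ec a B) := by
  unfold ec
  exact (Complex.measurable_ofReal.sub_const _).div (Complex.measurable_ofReal.sub_const _)

theorem integral_nu_eq (g : ℝ → ℝ) : ∫ x, g x ∂nu = ∫ x, π⁻¹ * (x ^ 2 + 1)⁻¹ * g x := by
  have h1 : nu = volume.withDensity (cauchyPDF 0 1) :=
    cauchyMeasure_of_scale_ne_zero 0 one_ne_zero
  rw [h1, integral_withDensity_eq_integral_toReal_smul (measurable_cauchyPDF 0 1)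
    (Filter.Eventually.of_forall fun _ => ENNReal.ofReal_lt_top)]
  refine integral_congr_ae (Filter.Eventually.of_forall fun x => ?_)
  simp only [cauchyPDF, smul_eq_mul]
  rw [ENNReal.toReal_ofReal, cauchyPDFReal_def]
  · simp
  · rw [cauchyPDFReal_def]
    positivity

theorem integrable_nu_iff {g : ℝ → ℝ} :
    Integrable g nu ↔ Integrable fun x => π⁻¹ * (x ^ 2 + 1)⁻¹ * g x := by
  have h1 : nu = volume.withDensity (cauchyPDF 0 1) :=
    cauchyMeasure_of_scale_ne_zero 0 one_ne_zero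
  rw [h1, integrable_withDensity_iff_integrable_smul' (measurable_cauchyPDF 0 1)
    (Filter.Eventually.of_forall fun _ => ENNReal.ofReal_lt_top)]
  refine integrable_congr (Filter.Eventually.of_forall fun x => ?_)
  simp only [cauchyPDF, smul_eq_mul]
  rw [ENNReal.toReal_ofReal, cauchyPDFReal_def]
  · simp
  · rw [cauchyPDFReal_def]
    positivity

theorem dn_affine {a B : ℝ} (hB : 0 < B) (x : ℝ) : (dn a B (B * x + a))⁻¹ = (B ^ 2)⁻¹ * (x ^ 2 + 1)⁻¹ := by
  unfold dn
  rw [← mul_inv]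
  congr 1
  ring

/-- change of variables `v = a + B x` -/
theorem integral_dn_eq {a B : ℝ} (hB : 0 < B) (g : ℝ → ℝ) :
    ∫ v, g v * (dn a B v)⁻¹ = π / B * ∫ x, g (B * x + a) ∂nu := by
  rw [integral_nu_eq]
  have h1 : ∫ x, g (B * x + a) * (dn a B (B * x + a))⁻¹ =
      |B⁻¹| * ∫ v, g (v + a) * (dn a B (v + a))⁻¹ := by
    have := Measure.integral_comp_mul_left (fun v => g (v + a) * (dn a B (v + a))⁻¹) B
    rw [smul_eq_mul] at this
    exact this
  rw [integral_add_right_eq_self (fun v => g v * (dn a B v)⁻¹) a, abs_of_pos (inv_pos.2 hB)] at h1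
  have h2 : ∫ v, g v * (dn a B v)⁻¹ = B * ∫ x, g (B * x + a) * (dn a B (B * x + a))⁻¹ := by
    rw [h1, ← mul_assoc, mul_inv_cancel₀ hB.ne', one_mul]
  rw [h2, ← integral_const_mul, ← integral_const_mul]
  refine integral_congr_ae (Filter.Eventually.of_forall fun x => ?_)
  simp only []
  rw [dn_affine hB]
  have hpi := Real.pi_pos
  field_simp

theorem integrable_dn_iff {a B : ℝ} (hB : 0 < B) {g : ℝ → ℝ} :
    Integrable (fun v => g v * (dn a B v)⁻¹) ↔ Integrable (fun x => g (B * x + a)) nu := by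
  rw [integrable_nu_iff]
  have h1 : Integrable (fun v => g v * (dn a B v)⁻¹) ↔
      Integrable fun v => g (v + a) * (dn a B (v + a))⁻¹ :=
    ⟨fun h => h.comp_add_right a, fun h => by
      have := h.comp_sub_right a
      simpa using this⟩
  have h2 := integrable_comp_mul_left_iff (fun v => g (v + a) * (dn a B (v + a))⁻¹) hB.ne'
  rw [h1, ← h2]
  have hpi := Real.pi_pos
  have h3 : (fun x => g (B * x + a) * (dn a B (B * x + a))⁻¹) =
      fun x => (π / B ^ 2) * (π⁻¹ * (x ^ 2 + 1)⁻¹ * g (B * x + a)) := by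
    funext x
    rw [dn_affine hB]
    field_simp
  rw [h3]
  constructor
  · intro h
    have h4 := h.const_mul (π / B ^ 2)⁻¹
    refine h4.congr (Filter.Eventually.of_forall fun x => ?_)
    simp only []
    rw [← mul_assoc, inv_mul_cancel₀ (by positivity), one_mul]
  · intro h
    exact h.const_mul _

/-- **the circle average of the logarithm vanishes** -/
theorem log_circle {a B : ℝ} (hB : 0 < B) {w : ℂ} (hw : ‖w‖ = 1) :
    Integrable (fun v => Real.log ‖1 - w * ec a B v‖ * (dn a B v)⁻¹) ∧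
    ∫ v, Real.log ‖1 - w * ec a B v‖ * (dn a B v)⁻¹ = 0 := by
  have hint : CircleIntegrable (fun u => Real.log ‖1 - w * u‖) 0 1 :=
    MeromorphicOn.circleIntegrable_log_norm fun z _ => by fun_prop
  have i1 := nu_integrable_circle hint
  have e1 : ∀ x : ℝ, Real.log ‖1 - w * ec a B (B * x + a)‖ =
      (fun u => Real.log ‖1 - w * u‖) (((x : ℂ) + I) / ((x : ℂ) - I)) := by
    intro x
    simp only []
    rw [ec_eq hB]
    have : (B * x + a - a) / B = x := by
      field_simp
      ring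
    rw [this]
  constructor
  · rw [integrable_dn_iff hB]
    simp only [e1]
    exact i1
  · rw [integral_dn_eq hB]
    simp only [e1]
    rw [nu_integral_circle (fun u => Real.log ‖1 - w * u‖), avg_log_affine one_ne_zero, norm_one,
      Real.log_one, hw, div_one, Real.posLog_one]
    simp

/-- the exceptional set is a null set -/
theorem circle_null {a B : ℝ} (hB : 0 < B) {w : ℂ} (hw : ‖w‖ = 1) :
    ∀ᵐ v : ℝ, 1 - w * ec a B v ≠ 0 := by
  rw [ae_iff]
  simp only [not_not]
  have hsub : ({v : ℝ | 1 - w * ec a B v = 0}).Subsingleton := by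
    intro s hs t ht
    simp only [Set.mem_setOf_eq] at hs ht
    have hw0 : w ≠ 0 := by
      rintro rfl
      simp at hw
    have h1 : ec a B s = ec a B t := by
      have h2 : w * ec a B s = w * ec a B t := by
        rw [← sub_eq_zero.1 hs, ← sub_eq_zero.1 ht]
      exact mul_left_cancel₀ hw0 h2
    have hd : ∀ v : ℝ, (v : ℂ) - (a + B * I) ≠ 0 := by
      intro v h0
      have := congrArg Complex.im h0
      simp at this
      exact hB.ne' this
    unfold ec at h1
    rw [div_eq_div_iff (hd s) (hd t)] at h1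
    have hB' : (B : ℂ) ≠ 0 := Complex.ofReal_ne_zero.2 hB.ne'
    have h3 : (2 * B * I) * ((s : ℂ) - t) = 0 := by linear_combination -h1
    have h4 : (s : ℂ) - t = 0 := by
      rcases mul_eq_zero.1 h3 with h | h
      · exact absurd h (by simp [hB.ne'])
      · exact h
    exact_mod_cast sub_eq_zero.1 h4
  exact hsub.measure_zero _

/-- lower bound on the circle: `A0 + Re (al e) ≥ A0 |1 - w e|² / 4` -/
theorem circle_lower {A0 : ℝ} (hA0 : 0 < A0) {al : ℂ} (hal : ‖al‖ ≤ A0) :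
    ∃ w : ℂ, ‖w‖ = 1 ∧ ∀ e : ℂ, ‖e‖ = 1 → A0 * ‖1 - w * e‖ ^ 2 / 4 ≤ A0 + (al * e).re := by
  have hn : ∀ w e : ℂ, ‖w‖ = 1 → ‖e‖ = 1 → ‖1 - w * e‖ ^ 2 = 2 - 2 * (w * e).re := by
    intro w e hw he
    have h1 : ‖w * e‖ = 1 := by rw [norm_mul, hw, he, one_mul]
    have h2 : (w * e).re ^ 2 + (w * e).im ^ 2 = 1 := by
      have := Complex.sq_norm (w * e)
      rw [h1, Complex.normSq_apply] at this
      linarith
    rw [Complex.sq_norm, Complex.normSq_apply]
    simp only [Complex.sub_re, Complex.sub_im, Complex.one_re, Complex.one_im]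
    linarith
  by_cases h0 : al = 0
  · refine ⟨1, norm_one, fun e he => ?_⟩
    rw [hn 1 e norm_one he, h0, one_mul, zero_mul, Complex.zero_re, add_zero]
    have h2 : |e.re| ≤ 1 := he ▸ Complex.abs_re_le_norm e
    have h3 := (abs_le.1 h2).1
    nlinarith
  · have hp : 0 < ‖al‖ := norm_pos_iff.2 h0
    have hpc : (‖al‖ : ℂ) ≠ 0 := Complex.ofReal_ne_zero.2 hp.ne'
    have hw : ‖-(al / ‖al‖)‖ = 1 := by
      rw [norm_neg, norm_div, Complex.norm_real, Real.norm_of_nonneg hp.le, div_self hp.ne']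
    refine ⟨-(al / ‖al‖), hw, fun e he => ?_⟩
    rw [hn _ e hw he]
    have h1 : (-(al / ‖al‖) * e).re = -((al * e).re / ‖al‖) := by
      have : -(al / (‖al‖ : ℂ)) * e = -(al * e / ((‖al‖ : ℝ) : ℂ)) := by ring
      rw [this, Complex.neg_re, Complex.div_ofReal_re]
    rw [h1]
    have h2 : |(al * e).re| ≤ ‖al‖ := by
      have := Complex.abs_re_le_norm (al * e)
      rwa [norm_mul, he, mul_one] at this
    set y := (al * e).re with hy
    have h3 := abs_le.1 h2
    -- `A0 (2 + 2 y/n)/4 ≤ A0 + y`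
    have h4 : A0 * (y / ‖al‖) ≤ A0 + 2 * y := by
      rw [← mul_div_assoc, div_le_iff₀ hp]
      nlinarith [mul_nonneg (sub_nonneg.2 hal) (show 0 ≤ ‖al‖ - y by linarith),
        mul_nonneg hp.le (show 0 ≤ ‖al‖ + y by linarith)]
    nlinarith

/-- **a function bounded by the logarithm of an affine function of the circle variable** -/
theorem log_affine_le {a B : ℝ} (hB : 0 < B) {A0 : ℝ} (hA0 : 0 < A0) {al : ℂ} (hal : ‖al‖ ≤ A0)
    {c1 : ℝ} {L : ℝ → ℝ} (hm : AEStronglyMeasurable L volume) (h0 : ∀ v, 0 ≤ L v)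
    (hL : ∀ v, 0 < A0 + (al * ec a B v).re →
      L v ≤ c1 + Real.log (A0 / (A0 + (al * ec a B v).re))) :
    Integrable (fun v => L v * (dn a B v)⁻¹) ∧
    ∫ v, L v * (dn a B v)⁻¹ ≤ (c1 + Real.log 4) * (π / B) := by
  obtain ⟨w, hw, hlow⟩ := circle_lower hA0 hal
  obtain ⟨i1, e1⟩ := log_circle (a := a) hB hw
  have hi := integrable_dn_inv hB a
  have hae : ∀ᵐ v : ℝ, L v * (dn a B v)⁻¹ ≤ (c1 + Real.log 4) * (dn a B v)⁻¹ -
      2 * (Real.log ‖1 - w * ec a B v‖ * (dn a B v)⁻¹) := by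
    filter_upwards [circle_null (a := a) hB hw] with v hv
    have hp : 0 < ‖1 - w * ec a B v‖ := norm_pos_iff.2 hv
    have h1 := hlow _ (norm_ec (a := a) hB v)
    have h2 : 0 < A0 * ‖1 - w * ec a B v‖ ^ 2 / 4 := by positivity
    have h3 : 0 < A0 + (al * ec a B v).re := lt_of_lt_of_le h2 h1
    have h4 := hL v h3
    have h5 : A0 / (A0 + (al * ec a B v).re) ≤ 4 / ‖1 - w * ec a B v‖ ^ 2 := by
      rw [div_le_div_iff₀ h3 (by positivity)]
      linarith
    have h6 : Real.log (A0 / (A0 + (al * ec a B v).re)) ≤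
        Real.log 4 - 2 * Real.log ‖1 - w * ec a B v‖ := by
      have h7 := Real.log_le_log (by positivity) h5
      have h8 : Real.log (4 / ‖1 - w * ec a B v‖ ^ 2) =
          Real.log 4 - 2 * Real.log ‖1 - w * ec a B v‖ := by
        rw [Real.log_div (by norm_num) (by positivity), Real.log_pow]
        norm_num
      rwa [h8] at h7
    have hd : 0 ≤ (dn a B v)⁻¹ := inv_nonneg.2 (dn_pos hB a v).le
    calc L v * (dn a B v)⁻¹ ≤
        (c1 + Real.log 4 - 2 * Real.log ‖1 - w * ec a B v‖) * (dn a B v)⁻¹ :=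
          mul_le_mul_of_nonneg_right (by linarith) hd
      _ = _ := by ring
  have hbig : Integrable (fun v => (c1 + Real.log 4) * (dn a B v)⁻¹ -
      2 * (Real.log ‖1 - w * ec a B v‖ * (dn a B v)⁻¹)) := (hi.const_mul _).sub (i1.const_mul 2)
  have hint : Integrable (fun v => L v * (dn a B v)⁻¹) := by
    refine hbig.mono' (hm.mul (continuous_dn_inv hB a).aestronglyMeasurable) ?_
    filter_upwards [hae] with v hv
    rw [Real.norm_eq_abs, abs_of_nonneg (mul_nonneg (h0 v) (inv_nonneg.2 (dn_pos hB a v).le))]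
    exact hv
  refine ⟨hint, ?_⟩
  refine (integral_mono_ae hint hbig hae).trans (le_of_eq ?_)
  rw [integral_sub (hi.const_mul _) (i1.const_mul 2), integral_const_mul, integral_const_mul, e1,
    integral_dn_inv hB]
  ring

/-- **(LOG), final form**: `L ≤ c1 + log (A0 / A(v))`, `A(v) = A0 + Re (al e(v)) ≥ 0` on the
circle, `L ≤ M` on the support of the law -/
theorem C11.log_affine {L0 R0 K : ℝ} {ν : Measure ℝ} {ρ : ℝ → ℝ} (h : C11 L0 R0 K ν ρ)
    {a B : ℝ} (hB : 0 < B) {A0 : ℝ} (hA0 : 0 < A0) {al : ℂ} (hal : ‖al‖ ≤ A0)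
    {c1 M : ℝ} (hc1 : 0 ≤ c1) (hM : 0 ≤ M) {L : ℝ → ℝ} (hm : AEStronglyMeasurable L volume)
    (h0 : ∀ v, 0 ≤ L v) (hLM : ∀ v ∈ Icc (-L0) L0, L v ≤ M)
    (hL : ∀ v, 0 < A0 + (al * ec a B v).re →
      L v ≤ c1 + Real.log (A0 / (A0 + (al * ec a B v).re))) :
    ∫ v, L v * (dn a B v)⁻¹ ∂ν ≤ 2 * (c1 + Real.log 4) * ∫ v, (dn a B v)⁻¹ ∂ν +
      CL L0 R0 K * (c1 + Real.log 4 + M) / (1 + a ^ 2 + B ^ 2) := by
  obtain ⟨i1, e1⟩ := log_affine_le hB hA0 hal hm h0 hL
  have h4 : 0 ≤ Real.log 4 := Real.log_nonneg (by norm_num)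
  exact h.log_le hB (by linarith) hM h0 hLM i1 e1

end P365T2.H531
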